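import Vale.Agent.P361.H285.Defs

/-!
Energy and entropy of the Heisenberg ferromagnet in a magnetic field.
-/

namespace Vale.Agent.P361.H113

open Matrix Vale.Agent.P361.Model Vale.Agent.P361.H285

noncomputable section

/-- Energy per site `⟨H_N - h M_N⟩ / |Λ_N|` of the Gibbs state of the free cube `Λ_N`. -/
def finEnergy (n N : ℕ) (β h : ℝ) : ℝ :=
  (Matrix.trace (gibbsOp n N β h *
    (hamiltonian n (fun x y : box N => ∑ i, |x.1 i - y.1 i| = 1) -
      (h : ℂ) • magnetization n (box N)))).re /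
    (Matrix.trace (gibbsOp n N β h)).re / (box N).card

/-- Entropy per site `(log Tr e^{-β(H_N - hM_N)} + β ⟨H_N - hM_N⟩) / |Λ_N|` of the Gibbs state of the
free cube `Λ_N`. -/
def finEntropy (n N : ℕ) (β h : ℝ) : ℝ :=
  logTr n (fun x y : box N => ∑ i, |x.1 i - y.1 i| = 1) β h / (box N).card +
    β * finEnergy n N β h

/-- Energy density in infinite volume, from lower temperatures: minus the right derivative of
`b ↦ b p_b(h)` at `β`. -/
def energyR (n : ℕ) (β h : ℝ) : ℝ :=
  -derivWithin (fun b : ℝ => b * pressure n b h) (Set.Ioi β) β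

/-- Energy density in infinite volume, from higher temperatures: minus the left derivative of
`b ↦ b p_b(h)` at `β`. -/
def energyL (n : ℕ) (β h : ℝ) : ℝ :=
  -derivWithin (fun b : ℝ => b * pressure n b h) (Set.Iio β) β

/-- `(4πS)^{-3/2} ((3/2) Li_{5/2}(e^{-t}) + t Li_{3/2}(e^{-t}))`: energy of ideal spin waves. -/
def spinWaveEnergy (S t : ℝ) : ℝ := 3 / 2 * spinWavePressure S t + t * spinWaveDeficit S t

/-- `(4πS)^{-3/2} ((5/2) Li_{5/2}(e^{-t}) + t Li_{3/2}(e^{-t}))`: entropy of ideal spin waves. -/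
def spinWaveEntropy (S t : ℝ) : ℝ := 5 / 2 * spinWavePressure S t + t * spinWaveDeficit S t

end

end Vale.Agent.P361.H113
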