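import Vale.Agent.P361.H285.Upper

/-!
Inequalities for the polylogarithms, uniform in the field.
-/

namespace Vale.Agent.P361.H113

open Filter Topology Vale.Agent.P361.B Vale.Agent.P361.H285

/-- `δ f(t + δ) ≤ F(t) - F(t + δ)`. -/
theorem FS_sub_ge (S : ℝ) {t δ : ℝ} (ht : 0 ≤ t) (hδ : 0 ≤ δ) :
    δ * fS S (t + δ) ≤ FS S t - FS S (t + δ) := by
  unfold FS fS
  rw [← mul_sub, ← (summable_F ht).tsum_sub (summable_F (add_nonneg ht hδ)),
    mul_left_comm δ]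
  refine mul_le_mul_of_nonneg_left ?_ (by positivity)
  rw [← tsum_mul_left]
  refine Summable.tsum_le_tsum (fun r => ?_) ((summable_f (add_nonneg ht hδ)).mul_left δ)
    ((summable_F ht).sub (summable_F (add_nonneg ht hδ)))
  rw [← sub_div, le_div_iff₀ (by positivity)]
  have h1 : Real.exp (-(((r : ℝ) + 1) * t)) =
      Real.exp (-(((r : ℝ) + 1) * (t + δ))) * Real.exp (((r : ℝ) + 1) * δ) := by
    rw [← Real.exp_add]; congr 1; ring
  have h2 : 1 + ((r : ℝ) + 1) * δ ≤ Real.exp (((r : ℝ) + 1) * δ) := by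
    have := Real.add_one_le_exp (((r : ℝ) + 1) * δ)
    linarith
  have h3 : δ * (Real.exp (-(((r : ℝ) + 1) * (t + δ))) / Real.sqrt ((r : ℝ) + 1) ^ 3) *
      (((r : ℝ) + 1) * Real.sqrt ((r : ℝ) + 1) ^ 3) =
      Real.exp (-(((r : ℝ) + 1) * (t + δ))) * (((r : ℝ) + 1) * δ) := by
    have : 0 < Real.sqrt ((r : ℝ) + 1) := Real.sqrt_pos.2 (by positivity)
    field_simp
  rw [h3, h1]
  have := Real.exp_pos (-(((r : ℝ) + 1) * (t + δ)))
  nlinarith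

/-- `f ≤ κ F`. -/
theorem fS_le_FS {n : ℕ} (hn : 1 ≤ n) : ∃ κ : ℝ, 1 ≤ κ ∧ ∀ t : ℝ, 0 ≤ t →
    fS ((n : ℝ) / 2) t ≤ κ * FS ((n : ℝ) / 2) t := by
  have hc := cS_pos hn
  refine ⟨max 1 (aS ((n : ℝ) / 2) / cS n), le_max_left _ _, fun t ht => ?_⟩
  have h1 : fS ((n : ℝ) / 2) t ≤ Real.exp (-t) * aS ((n : ℝ) / 2) := by
    rw [← fS_zero]
    unfold fS
    rw [mul_left_comm]
    refine mul_le_mul_of_nonneg_left ?_ (by positivity)
    rw [← tsum_mul_left]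
    refine Summable.tsum_le_tsum (fun r => ?_) (summable_f ht) ((summable_f le_rfl).mul_left _)
    rw [← mul_div_assoc]
    refine div_le_div_of_nonneg_right ?_ (by positivity)
    have : (0 : ℝ) ≤ r := Nat.cast_nonneg r
    rw [mul_zero, neg_zero, Real.exp_zero, mul_one]
    apply Real.exp_le_exp.2
    nlinarith
  have h2 := FS_ge n ht
  have h3 := FS_nonneg ((n : ℝ) / 2) t
  calc fS ((n : ℝ) / 2) t ≤ Real.exp (-t) * aS ((n : ℝ) / 2) := h1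
    _ = aS ((n : ℝ) / 2) / cS n * (cS n * Real.exp (-t)) := by field_simp
    _ ≤ aS ((n : ℝ) / 2) / cS n * FS ((n : ℝ) / 2) t :=
        mul_le_mul_of_nonneg_left h2 (div_nonneg (aS_nonneg _) hc.le)
    _ ≤ _ := mul_le_mul_of_nonneg_right (le_max_right _ _) h3

/-- Variation of `f` over small windows. -/
theorem var_f {n : ℕ} (hn : 1 ≤ n) {ε : ℝ} (hε : 0 < ε) : ∃ η : ℝ, 0 < η ∧
    ∀ s δ : ℝ, 0 ≤ s → 0 ≤ δ → δ ≤ η →
      (s + δ) * (fS ((n : ℝ) / 2) s - fS ((n : ℝ) / 2) (s + δ)) ≤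
        ε * (FS ((n : ℝ) / 2) (s + δ) + (s + δ) * fS ((n : ℝ) / 2) (s + δ)) := by
  have hc := cS_pos hn
  have hF1 : 0 < FS ((n : ℝ) / 2) 1 :=
    lt_of_lt_of_le (mul_pos hc (Real.exp_pos _)) (FS_ge n zero_le_one)
  obtain ⟨x, hx0, hx1, hx2, hx3⟩ : ∃ x : ℝ, 0 < x ∧ x ≤ 1 / 2 ∧ 5 * x ≤ ε ∧
      fS ((n : ℝ) / 2) 0 - fS ((n : ℝ) / 2) x ≤ ε * FS ((n : ℝ) / 2) 1 := by
    have h1 : ∀ᶠ x : ℝ in 𝓝[>] 0, fS ((n : ℝ) / 2) 0 - ε * FS ((n : ℝ) / 2) 1 ≤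
        fS ((n : ℝ) / 2) x :=
      ((fS_tendsto_zero ((n : ℝ) / 2)).mono_left
        (nhdsWithin_mono _ Set.Ioi_subset_Ici_self)).eventually
        (le_mem_nhds (by
          have : 0 < ε * FS ((n : ℝ) / 2) 1 := by positivity
          linarith))
    obtain ⟨x, hx1, hx2⟩ := (h1.and (Ioo_mem_nhdsGT
      (show (0 : ℝ) < min (1 / 2) (ε / 5) by positivity))).exists
    have h3 := hx2.2.le.trans (min_le_left _ _)
    have h4 := hx2.2.le.trans (min_le_right _ _)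
    exact ⟨x, hx2.1, h3, by linarith, by linarith⟩
  refine ⟨x, hx0, fun s δ hs hδ hδx => ?_⟩
  have hsδ : 0 ≤ s + δ := by linarith
  have hf := fS_nonneg ((n : ℝ) / 2) (s + δ)
  have hF := FS_nonneg ((n : ℝ) / 2) (s + δ)
  rcases le_or_gt 1 (s + δ) with h | h
  · have h1 := fS_shift n h hδ (hδx.trans hx1)
    rw [add_sub_cancel_right] at h1
    have h2 : fS ((n : ℝ) / 2) s - fS ((n : ℝ) / 2) (s + δ) ≤ ε * fS ((n : ℝ) / 2) (s + δ) := by
      have : 5 * δ * fS ((n : ℝ) / 2) (s + δ) ≤ ε * fS ((n : ℝ) / 2) (s + δ) :=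
        mul_le_mul_of_nonneg_right (by linarith) hf
      linarith
    have h3 := mul_le_mul_of_nonneg_left h2 hsδ
    have h4 : 0 ≤ ε * FS ((n : ℝ) / 2) (s + δ) := by positivity
    linarith
  · have h1 := fS_sub_le ((n : ℝ) / 2) hs hδ
    have h2 := fS_anti ((n : ℝ) / 2) hδ hδx
    have h3 := fS_anti ((n : ℝ) / 2) hs (show s ≤ s + δ by linarith)
    have h4 := FS_anti ((n : ℝ) / 2) hsδ h.le
    have h5 : (s + δ) * (fS ((n : ℝ) / 2) s - fS ((n : ℝ) / 2) (s + δ)) ≤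
        1 * (fS ((n : ℝ) / 2) s - fS ((n : ℝ) / 2) (s + δ)) :=
      mul_le_mul_of_nonneg_right h.le (by linarith)
    have h6 := mul_le_mul_of_nonneg_left h4 hε.le
    have h7 : 0 ≤ ε * ((s + δ) * fS ((n : ℝ) / 2) (s + δ)) := by positivity
    linarith

/-- `(1 - ρ)^{-3/2} ≤ 1 + (3/2) ρ + 4 ρ²`. -/
theorem inv_sqrt_sub {ρ : ℝ} (h0 : 0 ≤ ρ) (h1 : ρ ≤ 1 / 4) :
    (Real.sqrt (1 - ρ) ^ 3)⁻¹ ≤ 1 + 3 / 2 * ρ + 4 * ρ ^ 2 := by
  have ha : 0 < Real.sqrt (1 - ρ) := Real.sqrt_pos.2 (by linarith)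
  have hb : 1 - ρ / 2 - ρ ^ 2 / 2 ≤ Real.sqrt (1 - ρ) := by
    refine Real.le_sqrt_of_sq_le ?_
    nlinarith [mul_nonneg h0 h0, mul_nonneg (mul_nonneg h0 h0) h0]
  have h2 : Real.sqrt (1 - ρ) ^ 3 = (1 - ρ) * Real.sqrt (1 - ρ) := by
    rw [pow_succ, Real.sq_sqrt (by linarith)]
  have h3 : (1 - ρ) * (1 - ρ / 2 - ρ ^ 2 / 2) ≤ Real.sqrt (1 - ρ) ^ 3 := by
    rw [h2]
    exact mul_le_mul_of_nonneg_left hb (by linarith)
  rw [inv_le_iff_one_le_mul₀ (by positivity)]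
  have h4 : (1 + 3 / 2 * ρ + 4 * ρ ^ 2) * ((1 - ρ) * (1 - ρ / 2 - ρ ^ 2 / 2)) ≤
      (1 + 3 / 2 * ρ + 4 * ρ ^ 2) * Real.sqrt (1 - ρ) ^ 3 :=
    mul_le_mul_of_nonneg_left h3 (by positivity)
  refine le_trans ?_ h4
  have e : (1 + 3 / 2 * ρ + 4 * ρ ^ 2) * ((1 - ρ) * (1 - ρ / 2 - ρ ^ 2 / 2)) =
      1 + ρ ^ 2 * (7 / 4 - 11 / 2 * ρ + 3 / 4 * ρ ^ 2 + 2 * ρ ^ 3) := by ring
  rw [e]
  have : 0 ≤ ρ ^ 2 * (7 / 4 - 11 / 2 * ρ + 3 / 4 * ρ ^ 2 + 2 * ρ ^ 3) := by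
    refine mul_nonneg (by positivity) ?_
    have h5 : 0 ≤ 3 / 4 * ρ ^ 2 + 2 * ρ ^ 3 := by positivity
    linarith
  linarith

/-- `(1 + ρ)^{-3/2} ≤ 1 - (3/2) ρ + 4 ρ²`. -/
theorem inv_sqrt_add {ρ : ℝ} (h0 : 0 ≤ ρ) :
    (Real.sqrt (1 + ρ) ^ 3)⁻¹ ≤ 1 - 3 / 2 * ρ + 4 * ρ ^ 2 := by
  have ha : 0 < Real.sqrt (1 + ρ) := Real.sqrt_pos.2 (by linarith)
  set a := Real.sqrt (1 + ρ) with hadef
  have h2 : a ^ 2 = 1 + ρ := Real.sq_sqrt (by linarith)
  have h3 : 1 + 3 / 2 * ρ ≤ a ^ 3 := by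
    have h4 : 0 ≤ (a - 1) ^ 2 * (2 * a + 1) := by positivity
    have h5 : ρ = a ^ 2 - 1 := by linarith
    rw [h5]
    nlinarith
  rw [inv_le_iff_one_le_mul₀ (by positivity)]
  have h5 : 0 ≤ 1 - 3 / 2 * ρ + 4 * ρ ^ 2 := by nlinarith [sq_nonneg (2 * ρ - 3 / 8)]
  refine le_trans ?_ (mul_le_mul_of_nonneg_left h3 h5)
  have e : (1 - 3 / 2 * ρ + 4 * ρ ^ 2) * (1 + 3 / 2 * ρ) = 1 + ρ ^ 2 * (7 / 4 + 6 * ρ) := by ring
  rw [e]
  have : 0 ≤ ρ ^ 2 * (7 / 4 + 6 * ρ) := by positivity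
  linarith

/-- `Q(t) = (3/2) F(t) + t f(t)`. -/
noncomputable def QS (S t : ℝ) : ℝ := 3 / 2 * FS S t + t * fS S t

theorem QS_nonneg (S : ℝ) {t : ℝ} (ht : 0 ≤ t) : 0 ≤ QS S t := by
  have h1 := FS_nonneg S t
  have h2 := fS_nonneg S t
  unfold QS
  positivity

theorem QS_pos {n : ℕ} (hn : 1 ≤ n) {t : ℝ} (ht : 0 ≤ t) : 0 < QS ((n : ℝ) / 2) t := by
  have h1 : 0 < FS ((n : ℝ) / 2) t :=
    lt_of_lt_of_le (mul_pos (cS_pos hn) (Real.exp_pos _)) (FS_ge n ht)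
  have h2 := fS_nonneg ((n : ℝ) / 2) t
  unfold QS
  positivity

/-- The slopes of `b ↦ b^{-3/2} F(b h)` over windows of relative length `η / (1 + t)`. -/
theorem slope_ineq {n : ℕ} (hn : 1 ≤ n) {ε : ℝ} (hε : 0 < ε) : ∃ η e : ℝ, 0 < η ∧ η ≤ 1 / 4 ∧
    0 < e ∧ e ≤ 1 ∧ ∀ t ρ : ℝ, 0 ≤ t → ρ * (1 + t) = η →
      (1 + e) * (FS ((n : ℝ) / 2) (t - ρ * t) * (Real.sqrt (1 - ρ) ^ 3)⁻¹) -
          (1 - e) * FS ((n : ℝ) / 2) t ≤ ρ * ((1 + ε) * QS ((n : ℝ) / 2) t) ∧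
      ρ * ((1 - ε) * QS ((n : ℝ) / 2) t) ≤ (1 - e) * FS ((n : ℝ) / 2) t -
        (1 + e) * (FS ((n : ℝ) / 2) (t + ρ * t) * (Real.sqrt (1 + ρ) ^ 3)⁻¹) := by
  obtain ⟨κ, hκ1, hκ⟩ := fS_le_FS hn
  obtain ⟨x, hx0, hx⟩ := var_f hn (ε := ε / 6) (by positivity)
  obtain ⟨η, hη0, hηx, hη1, hη2, hη3⟩ : ∃ η : ℝ, 0 < η ∧ η ≤ x ∧ η ≤ 1 / 4 ∧ κ * η ≤ 1 / 4 ∧
      9 * (κ * η) ≤ ε / 3 := by
    have hκ0 : 0 < κ := by linarith
    refine ⟨min x (min (1 / (4 * κ)) (ε / (27 * κ))), by positivity, min_le_left _ _, ?_, ?_, ?_⟩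
    · refine (min_le_right _ _).trans ((min_le_left _ _).trans ?_)
      exact div_le_div_of_nonneg_left (by norm_num) (by norm_num) (by linarith)
    · calc κ * min x (min (1 / (4 * κ)) (ε / (27 * κ))) ≤ κ * (1 / (4 * κ)) :=
            mul_le_mul_of_nonneg_left ((min_le_right _ _).trans (min_le_left _ _)) hκ0.le
        _ = 1 / 4 := by field_simp
    · calc 9 * (κ * min x (min (1 / (4 * κ)) (ε / (27 * κ)))) ≤ 9 * (κ * (ε / (27 * κ))) := by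
            refine mul_le_mul_of_nonneg_left (mul_le_mul_of_nonneg_left
              ((min_le_right _ _).trans (min_le_right _ _)) hκ0.le) (by norm_num)
        _ = ε / 3 := by field_simp; norm_num
  have hηκ : η ≤ κ * η := le_mul_of_one_le_left hη0.le hκ1
  refine ⟨η, min 1 (ε * η / 15), hη0, hη1, by positivity, min_le_left _ _, fun t ρ ht hρ => ?_⟩
  obtain ⟨e, he⟩ : ∃ e : ℝ, e = min 1 (ε * η / 15) := ⟨_, rfl⟩
  have he0 : 0 < e := by rw [he]; positivity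
  have he1 : e ≤ ε * η / 15 := by rw [he]; exact min_le_right _ _
  rw [← he]
  have ht1 : 0 < 1 + t := by linarith
  have hρ0 : 0 < ρ := by
    by_contra h
    push Not at h
    have : ρ * (1 + t) ≤ 0 := mul_nonpos_of_nonpos_of_nonneg h ht1.le
    linarith
  have hρt0 : 0 ≤ ρ * t := by positivity
  have hρη : ρ + ρ * t = η := by linarith
  have hρt : ρ * t ≤ t := by
    have : ρ * t ≤ 1 * t := mul_le_mul_of_nonneg_right (by linarith) ht
    linarith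
  set S : ℝ := (n : ℝ) / 2 with hS
  obtain ⟨δ, hδ⟩ : ∃ δ : ℝ, δ = ρ * t := ⟨_, rfl⟩
  rw [← hδ] at hρt0 hρη hρt ⊢
  have htδ : 0 ≤ t - δ := by linarith
  have htδ' : 0 ≤ t + δ := by linarith
  -- values
  have F0 := FS_nonneg S t
  have f0 := fS_nonneg S t
  have Fm0 := FS_nonneg S (t - δ)
  have Fp0 := FS_nonneg S (t + δ)
  have fp0 := fS_nonneg S (t + δ)
  have fm0 := fS_nonneg S (t - δ)
  have hFf := FS_le_fS S ht
  have htf : 0 ≤ t * fS S t := by positivity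
  -- `W = F + t f ≤ Q`
  obtain ⟨W, hW⟩ : ∃ W : ℝ, W = FS S t + t * fS S t := ⟨_, rfl⟩
  have hW0 : 0 ≤ W := by rw [hW]; positivity
  have hWQ : W ≤ QS S t := by rw [hW]; unfold QS; linarith
  have hFW : FS S t ≤ W := by rw [hW]; linarith
  -- error terms: `5 e F(t) ≤ ρ (ε/3) W`
  have herr : 5 * e * FS S t ≤ ρ * (ε / 3 * W) := by
    have g1 : 5 * e * FS S t ≤ 5 * (ε * η / 15) * FS S t :=
      mul_le_mul_of_nonneg_right (by linarith) F0
    have g2 : 5 * (ε * η / 15) * FS S t = ρ * (ε / 3 * (FS S t + t * FS S t)) := by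
      rw [← hρ]; ring
    have g3 : ρ * (ε / 3 * (FS S t + t * FS S t)) ≤ ρ * (ε / 3 * W) := by
      refine mul_le_mul_of_nonneg_left (mul_le_mul_of_nonneg_left ?_ (by positivity)) hρ0.le
      rw [hW]
      have := mul_le_mul_of_nonneg_left hFf ht
      linarith
    linarith
  have hκηW : 9 * (κ * η) * W ≤ ε / 3 * W := mul_le_mul_of_nonneg_right hη3 hW0
  have hεW : ρ * (ε * W) ≤ ρ * (ε * QS S t) :=
    mul_le_mul_of_nonneg_left (mul_le_mul_of_nonneg_left hWQ hε.le) hρ0.le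
  constructor
  · -- upper bound
    have g1 := FS_sub_le S htδ hρt0
    rw [sub_add_cancel] at g1
    have g2 := hκ (t - δ) htδ
    have g3 : δ * fS S (t - δ) ≤ κ * η * FS S (t - δ) := by
      calc δ * fS S (t - δ) ≤ η * (κ * FS S (t - δ)) := mul_le_mul (by linarith) g2 fm0 hη0.le
        _ = _ := by ring
    have g4 : FS S (t - δ) ≤ (1 + 2 * (κ * η)) * FS S t := by
      have q1 : (1 - κ * η) * FS S (t - δ) ≤ FS S t := by linarith
      have q2 : 0 ≤ κ * η := by linarith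
      have q3 := mul_le_mul_of_nonneg_left q1 (show 0 ≤ 1 + 2 * (κ * η) by linarith)
      have q4 : (1 + 2 * (κ * η)) * ((1 - κ * η) * FS S (t - δ)) =
          FS S (t - δ) + κ * η * (1 - 2 * (κ * η)) * FS S (t - δ) := by ring
      have q5 : 0 ≤ κ * η * (1 - 2 * (κ * η)) * FS S (t - δ) :=
        mul_nonneg (mul_nonneg q2 (by linarith)) Fm0
      linarith
    have g4' : FS S (t - δ) ≤ 2 * FS S t := by
      have : (1 + 2 * (κ * η)) * FS S t ≤ 2 * FS S t :=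
        mul_le_mul_of_nonneg_right (by linarith) F0
      linarith
    have g5 := hx (t - δ) δ htδ hρt0 (by linarith)
    rw [sub_add_cancel, ← hW] at g5
    obtain ⟨A, hA⟩ : ∃ A : ℝ, A = (Real.sqrt (1 - ρ) ^ 3)⁻¹ := ⟨_, rfl⟩
    have hA0 : 0 ≤ A := by rw [hA]; positivity
    have hA1 : A ≤ 1 + 3 / 2 * ρ + 4 * ρ ^ 2 := by
      rw [hA]; exact inv_sqrt_sub hρ0.le (by linarith)
    have hρ4 : ρ ≤ 1 / 4 := by linarith
    have hA2 : A ≤ 2 := by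
      have : ρ ^ 2 ≤ 1 / 4 * (1 / 4) := by
        rw [sq]; exact mul_le_mul hρ4 hρ4 hρ0.le (by norm_num)
      linarith
    rw [← hA]
    have k1 : (1 + e) * (FS S (t - δ) * A) - (1 - e) * FS S t =
        (A - 1) * FS S (t - δ) + (FS S (t - δ) - FS S t) + e * (A * FS S (t - δ) + FS S t) := by
      ring
    have k2 : (A - 1) * FS S (t - δ) ≤ (3 / 2 * ρ + 4 * ρ ^ 2) * FS S (t - δ) :=
      mul_le_mul_of_nonneg_right (by linarith) Fm0
    have k3 : e * (A * FS S (t - δ) + FS S t) ≤ e * (5 * FS S t) := by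
      refine mul_le_mul_of_nonneg_left ?_ he0.le
      have : A * FS S (t - δ) ≤ 2 * (2 * FS S t) := mul_le_mul hA2 g4' Fm0 (by norm_num)
      linarith
    have k4 : (3 / 2 * ρ + 4 * ρ ^ 2) * FS S (t - δ) ≤
        ρ * ((3 / 2 + 9 * (κ * η)) * FS S t) := by
      have q1 : (3 / 2 * ρ + 4 * ρ ^ 2) * FS S (t - δ) = ρ * ((3 / 2 + 4 * ρ) * FS S (t - δ)) := by
        ring
      rw [q1]
      refine mul_le_mul_of_nonneg_left ?_ hρ0.le
      have q2 : (3 / 2 + 4 * ρ) * FS S (t - δ) ≤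
          (3 / 2 + 4 * (κ * η)) * ((1 + 2 * (κ * η)) * FS S t) :=
        mul_le_mul (by linarith) g4 Fm0 (by linarith)
      refine q2.trans ?_
      rw [← mul_assoc]
      refine mul_le_mul_of_nonneg_right ?_ F0
      have q3 : 0 ≤ κ * η := by linarith
      have q4 : κ * η * (κ * η) ≤ 1 / 4 * (κ * η) := mul_le_mul_of_nonneg_right hη2 q3
      linarith
    have k5 : FS S (t - δ) - FS S t ≤ ρ * (t * fS S (t - δ)) := by
      rw [← mul_assoc, ← hδ]; exact g1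
    have k6 : ρ * (t * fS S (t - δ)) ≤ ρ * (t * fS S t + ε / 6 * W) :=
      mul_le_mul_of_nonneg_left (by linarith) hρ0.le
    have k7 : 0 ≤ ρ * (ε * W) := by positivity
    have k8 : ρ * (9 * (κ * η) * FS S t) ≤ ρ * (ε / 3 * W) := by
      refine mul_le_mul_of_nonneg_left ?_ hρ0.le
      refine le_trans ?_ hκηW
      exact mul_le_mul_of_nonneg_left hFW (by positivity)
    have k9 : ρ * ((1 + ε) * QS S t) = ρ * (3 / 2 * FS S t + t * fS S t) + ρ * (ε * QS S t) := by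
      unfold QS; ring
    rw [k1, k9]
    linarith
  · -- lower bound
    have g1 := FS_sub_ge S ht hρt0
    have g2 := hκ t ht
    have g3 : δ * fS S t ≤ κ * η * FS S t := by
      calc δ * fS S t ≤ η * (κ * FS S t) := mul_le_mul (by linarith) g2 f0 hη0.le
        _ = _ := by ring
    have g4 := FS_sub_le S ht hρt0
    have g5 := hx t δ ht hρt0 (by linarith)
    have g6 : FS S (t + δ) ≤ FS S t := FS_anti S ht (by linarith)
    have g7 : fS S (t + δ) ≤ fS S t := fS_anti S ht (by linarith)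
    have g8 : t * (fS S t - fS S (t + δ)) ≤ ε / 3 * W := by
      have q1 : t * (fS S t - fS S (t + δ)) ≤ (t + δ) * (fS S t - fS S (t + δ)) :=
        mul_le_mul_of_nonneg_right (by linarith) (by linarith)
      have q2 : (t + δ) * fS S (t + δ) ≤ (t + δ) * fS S t :=
        mul_le_mul_of_nonneg_left g7 htδ'
      have q3 : FS S (t + δ) + (t + δ) * fS S (t + δ) ≤ 2 * W := by
        have q4 : κ * η * FS S t ≤ 1 / 4 * FS S t := mul_le_mul_of_nonneg_right hη2 F0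
        rw [hW]
        linarith
      have q5 := mul_le_mul_of_nonneg_left q3 (show 0 ≤ ε / 6 by positivity)
      linarith
    obtain ⟨B, hB⟩ : ∃ B : ℝ, B = (Real.sqrt (1 + ρ) ^ 3)⁻¹ := ⟨_, rfl⟩
    have hB0 : 0 ≤ B := by rw [hB]; positivity
    have hB1 : B ≤ 1 - 3 / 2 * ρ + 4 * ρ ^ 2 := by
      rw [hB]; exact inv_sqrt_add hρ0.le
    have hB2 : B ≤ 1 := by
      have : ρ ^ 2 ≤ 1 / 4 * ρ := by
        rw [sq]; exact mul_le_mul_of_nonneg_right (by linarith) hρ0.le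
      linarith
    rw [← hB]
    have k1 : (1 - e) * FS S t - (1 + e) * (FS S (t + δ) * B) =
        (FS S t - FS S (t + δ)) + (1 - B) * FS S (t + δ) - e * (FS S t + B * FS S (t + δ)) := by
      ring
    have k2 : (3 / 2 * ρ - 4 * ρ ^ 2) * FS S (t + δ) ≤ (1 - B) * FS S (t + δ) :=
      mul_le_mul_of_nonneg_right (by linarith) Fp0
    have k3 : e * (FS S t + B * FS S (t + δ)) ≤ e * (5 * FS S t) := by
      refine mul_le_mul_of_nonneg_left ?_ he0.le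
      have : B * FS S (t + δ) ≤ 1 * FS S t := mul_le_mul hB2 g6 Fp0 (by norm_num)
      linarith
    have k4 : ρ * ((3 / 2 - 9 * (κ * η)) * FS S t) ≤ (3 / 2 * ρ - 4 * ρ ^ 2) * FS S (t + δ) := by
      have q1 : (3 / 2 * ρ - 4 * ρ ^ 2) * FS S (t + δ) = ρ * ((3 / 2 - 4 * ρ) * FS S (t + δ)) := by
        ring
      rw [q1]
      refine mul_le_mul_of_nonneg_left ?_ hρ0.le
      have q2 : (3 / 2 - 4 * ρ) * ((1 - κ * η) * FS S t) ≤ (3 / 2 - 4 * ρ) * FS S (t + δ) :=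
        mul_le_mul_of_nonneg_left (by linarith) (by linarith)
      refine le_trans ?_ q2
      have q6 : (3 / 2 - 4 * ρ) * ((1 - κ * η) * FS S t) =
          (3 / 2 - 4 * ρ) * (1 - κ * η) * FS S t := by ring
      rw [q6]
      refine mul_le_mul_of_nonneg_right ?_ F0
      have q3 : 0 ≤ κ * η := by linarith
      have q4 : 0 ≤ 4 * ρ * (κ * η) := by positivity
      linarith
    have k5 : ρ * (t * fS S (t + δ)) ≤ FS S t - FS S (t + δ) := by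
      rw [← mul_assoc, ← hδ]; exact g1
    have k6 : ρ * (t * fS S t - ε / 3 * W) ≤ ρ * (t * fS S (t + δ)) :=
      mul_le_mul_of_nonneg_left (by linarith) hρ0.le
    have k8 : ρ * (9 * (κ * η) * FS S t) ≤ ρ * (ε / 3 * W) := by
      refine mul_le_mul_of_nonneg_left ?_ hρ0.le
      refine le_trans ?_ hκηW
      exact mul_le_mul_of_nonneg_left hFW (by positivity)
    have k9 : ρ * ((1 - ε) * QS S t) = ρ * (3 / 2 * FS S t + t * fS S t) - ρ * (ε * QS S t) := by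
      unfold QS; ring
    rw [k1, k9]
    linarith

end Vale.Agent.P361.H113
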