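import Vale.Agent.P361.H285.Main
import Vale.Agent.P361.H113.Defs
import Vale.Agent.P361.H113.Ineq

/-!
The energy of the Gibbs states: supporting lines in `β`, and the slopes of the pressure.
-/

namespace Vale.Agent.P361.H113

open Filter Topology Matrix Vale.Agent.P361.B Vale.Agent.P361.H285

/-- Total energy `⟨H_Λ - h M_Λ⟩`. -/
noncomputable def gibbsEn (n : ℕ) (Λ : Finset Site) (β h : ℝ) : ℝ :=
  (trace (NormedSpace.exp (expo n Λ β h) *
    (hamiltonian n Λ - (h : ℂ) • magnetization n Λ))).re /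
    (trace (NormedSpace.exp (expo n Λ β h))).re

theorem enOp_isHermitian (n : ℕ) (Λ : Finset Site) (h : ℝ) :
    (hamiltonian n Λ - (h : ℂ) • magnetization n Λ).IsHermitian := by
  have h1 := expo_isHermitian n Λ (-1) h
  have e : expo n Λ (-1) h = hamiltonian n Λ - (h : ℂ) • magnetization n Λ := by
    unfold expo
    simp
  rwa [e] at h1

/-- Supporting line inequality in the inverse temperature. -/
theorem log_trace_support_beta (n : ℕ) (Λ : Finset Site) (β β' h : ℝ) :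
    Real.log (trace (NormedSpace.exp (expo n Λ β h))).re - (β' - β) * gibbsEn n Λ β h ≤
      Real.log (trace (NormedSpace.exp (expo n Λ β' h))).re := by
  have hY : (((-(β' - β) : ℝ) : ℂ) •
      (hamiltonian n Λ - (h : ℂ) • magnetization n Λ)).IsHermitian := by
    rw [Matrix.IsHermitian, Matrix.conjTranspose_smul, enOp_isHermitian n Λ h]
    simp
  have h1 := peierls_bogoliubov (expo_isHermitian n Λ β h) hY
  have e : expo n Λ β h + ((-(β' - β) : ℝ) : ℂ) •
      (hamiltonian n Λ - (h : ℂ) • magnetization n Λ) = expo n Λ β' h := by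
    unfold expo
    push_cast
    module
  rw [e] at h1
  refine le_trans (le_of_eq ?_) h1
  rw [Matrix.mul_smul, Matrix.trace_smul, smul_eq_mul, Complex.re_ofReal_mul]
  unfold gibbsEn
  ring

/-- `β p_Λ(β)` lies above its supporting lines. -/
theorem finPressure_support_beta (n : ℕ) {Λ : Finset Site} (hΛ : Λ.Nonempty) {β β' : ℝ}
    (hβ : 0 < β) (hβ' : 0 < β') (h : ℝ) :
    β * finPressure n Λ β h - (β' - β) * (gibbsEn n Λ β h / Λ.card) ≤
      β' * finPressure n Λ β' h := by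
  have h1 := log_trace_support_beta n Λ β β' h
  have hc : (0 : ℝ) < Λ.card := by exact_mod_cast hΛ.card_pos
  rw [finPressure_def, finPressure_def]
  have h2 := mul_le_mul_of_nonneg_left h1 (a := (Λ.card : ℝ)⁻¹) (by positivity)
  have e1 : β * ((β * Λ.card)⁻¹ * Real.log (trace (NormedSpace.exp (expo n Λ β h))).re) -
      (β' - β) * (gibbsEn n Λ β h / Λ.card) = (Λ.card : ℝ)⁻¹ *
      (Real.log (trace (NormedSpace.exp (expo n Λ β h))).re - (β' - β) * gibbsEn n Λ β h) := by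
    field_simp
  have e2 : β' * ((β' * Λ.card)⁻¹ * Real.log (trace (NormedSpace.exp (expo n Λ β' h))).re) =
      (Λ.card : ℝ)⁻¹ * Real.log (trace (NormedSpace.exp (expo n Λ β' h))).re := by
    field_simp
  rw [e1, e2]
  exact h2

/-- `b ↦ b p_b(h)` is convex. -/
theorem pressure_convex_beta (n : ℕ) (h : ℝ) :
    ConvexOn ℝ (Set.Ioi 0) (fun b : ℝ => b * pressure n b h) := by
  refine ⟨convex_Ioi 0, ?_⟩
  intro x hx y hy a b ha hb hab
  have hx' : (0 : ℝ) < x := hx
  have hy' : (0 : ℝ) < y := hy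
  have hz : (0 : ℝ) < a • x + b • y := convex_Ioi 0 hx hy ha hb hab
  simp only [smul_eq_mul] at hz ⊢
  have l0 := (pressure_tendsto n hz h).const_mul (a * x + b * y)
  have l1 := ((pressure_tendsto n hx' h).const_mul x).const_mul a
  have l2 := ((pressure_tendsto n hy' h).const_mul y).const_mul b
  refine le_of_tendsto_of_tendsto' l0 (l1.add l2) fun N => ?_
  have s1 := mul_le_mul_of_nonneg_left
    (finPressure_support_beta n (box_nonempty N) hz hx' h) ha
  have s2 := mul_le_mul_of_nonneg_left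
    (finPressure_support_beta n (box_nonempty N) hz hy' h) hb
  obtain ⟨z, hzdef⟩ : ∃ z : ℝ, z = a * x + b * y := ⟨_, rfl⟩
  rw [← hzdef] at s1 s2 ⊢
  obtain ⟨g, hg⟩ : ∃ g : ℝ, g = gibbsEn n (P361.box N) z h / ((P361.box N).card : ℝ) := ⟨_, rfl⟩
  obtain ⟨p, hp⟩ : ∃ p : ℝ, p = finPressure n (P361.box N) z h := ⟨_, rfl⟩
  rw [← hg, ← hp] at s1 s2
  rw [← hp]
  have hb' : b = 1 - a := by linarith
  subst hb'
  have e : a * (z * p - (x - z) * g) + (1 - a) * (z * p - (y - z) * g) = z * p := by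
    rw [hzdef]; ring
  linarith

theorem mem_int {β : ℝ} (hβ : 0 < β) : β ∈ interior (Set.Ioi (0 : ℝ)) := by
  rwa [interior_Ioi]

theorem hasRight (n : ℕ) {β : ℝ} (hβ : 0 < β) (h : ℝ) :
    HasDerivWithinAt (fun b : ℝ => b * pressure n b h)
      (derivWithin (fun b : ℝ => b * pressure n b h) (Set.Ioi β) β) (Set.Ioi β) β :=
  (pressure_convex_beta n h).hasDerivWithinAt_rightDeriv_of_mem_interior (mem_int hβ)

theorem hasLeft (n : ℕ) {β : ℝ} (hβ : 0 < β) (h : ℝ) :
    HasDerivWithinAt (fun b : ℝ => b * pressure n b h)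
      (derivWithin (fun b : ℝ => b * pressure n b h) (Set.Iio β) β) (Set.Iio β) β :=
  (pressure_convex_beta n h).hasDerivWithinAt_leftDeriv_of_mem_interior (mem_int hβ)

theorem left_le_right (n : ℕ) {β : ℝ} (hβ : 0 < β) (h : ℝ) :
    derivWithin (fun b : ℝ => b * pressure n b h) (Set.Iio β) β ≤
      derivWithin (fun b : ℝ => b * pressure n b h) (Set.Ioi β) β :=
  (pressure_convex_beta n h).leftDeriv_le_rightDeriv_of_mem_interior (mem_int hβ)

theorem slope_le_left (n : ℕ) {β β₁ : ℝ} (hβ₁ : 0 < β₁) (hlt : β₁ < β) (h : ℝ) :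
    (β * pressure n β h - β₁ * pressure n β₁ h) / (β - β₁) ≤
      derivWithin (fun b : ℝ => b * pressure n b h) (Set.Iio β) β := by
  have hβ : 0 < β := hβ₁.trans hlt
  have g := (pressure_convex_beta n h).slope_le_leftDeriv_of_mem_interior
    (x := β₁) (y := β) hβ₁ (mem_int hβ) hlt
  rwa [slope_def_field] at g

theorem right_le_slope (n : ℕ) {β β₂ : ℝ} (hβ : 0 < β) (hlt : β < β₂) (h : ℝ) :
    derivWithin (fun b : ℝ => b * pressure n b h) (Set.Ioi β) β ≤
      (β₂ * pressure n β₂ h - β * pressure n β h) / (β₂ - β) := by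
  have hβ₂ : 0 < β₂ := hβ.trans hlt
  have g := (pressure_convex_beta n h).rightDeriv_le_slope_of_mem_interior
    (x := β) (y := β₂) (mem_int hβ) hβ₂ hlt
  rwa [slope_def_field] at g

/-- Finite volume energies are squeezed by slopes of the limit. -/
theorem fin_upper (n : ℕ) {β β₁ : ℝ} (hβ₁ : 0 < β₁) (hlt : β₁ < β) (h : ℝ) {θ : ℝ} (hθ : 0 < θ) :
    ∀ᶠ N : ℕ in atTop, gibbsEn n (P361.box N) β h / (P361.box N).card ≤
      -((β * pressure n β h - β₁ * pressure n β₁ h) / (β - β₁)) + θ := by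
  have hβ : 0 < β := hβ₁.trans hlt
  have l0 := (pressure_tendsto n hβ h).const_mul β
  have l1 := (pressure_tendsto n hβ₁ h).const_mul β₁
  have l := ((l0.sub l1).div_const (β - β₁)).neg
  filter_upwards [l.eventually (ge_mem_nhds (lt_add_of_pos_right _ hθ))] with N hN
  refine le_trans ?_ hN
  have s := finPressure_support_beta n (box_nonempty N) hβ hβ₁ h
  rw [← neg_div, le_div_iff₀ (by linarith)]
  linarith

theorem fin_lower (n : ℕ) {β β₂ : ℝ} (hβ : 0 < β) (hlt : β < β₂) (h : ℝ) {θ : ℝ} (hθ : 0 < θ) :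
    ∀ᶠ N : ℕ in atTop, -((β₂ * pressure n β₂ h - β * pressure n β h) / (β₂ - β)) - θ ≤
      gibbsEn n (P361.box N) β h / (P361.box N).card := by
  have hβ₂ : 0 < β₂ := hβ.trans hlt
  have l0 := (pressure_tendsto n hβ h).const_mul β
  have l1 := (pressure_tendsto n hβ₂ h).const_mul β₂
  have l := ((l1.sub l0).div_const (β₂ - β)).neg
  filter_upwards [l.eventually (le_mem_nhds (sub_lt_self _ hθ))] with N hN
  refine le_trans hN ?_
  have s := finPressure_support_beta n (box_nonempty N) hβ hβ₂ h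
  rw [← neg_div, div_le_iff₀ (by linarith)]
  linarith

/-- Limit points of the finite volume energies. -/
theorem fin_between (n : ℕ) {β : ℝ} (hβ : 0 < β) (h : ℝ) {ε : ℝ} (hε : 0 < ε) :
    ∀ᶠ N : ℕ in atTop,
      -derivWithin (fun b : ℝ => b * pressure n b h) (Set.Ioi β) β - ε ≤
        gibbsEn n (P361.box N) β h / (P361.box N).card ∧
      gibbsEn n (P361.box N) β h / (P361.box N).card ≤
        -derivWithin (fun b : ℝ => b * pressure n b h) (Set.Iio β) β + ε := by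
  obtain ⟨β₂, hβ₂, hs2⟩ : ∃ β₂ : ℝ, β < β₂ ∧
      (β₂ * pressure n β₂ h - β * pressure n β h) / (β₂ - β) ≤
        derivWithin (fun b : ℝ => b * pressure n b h) (Set.Ioi β) β + ε / 2 := by
    have h1 := hasRight n hβ h
    rw [hasDerivWithinAt_iff_tendsto_slope' (by simp)] at h1
    obtain ⟨x, hx1, hx2⟩ := ((h1.eventually (ge_mem_nhds (lt_add_of_pos_right _
      (show 0 < ε / 2 by positivity)))).and self_mem_nhdsWithin).exists
    rw [slope_def_field] at hx1
    exact ⟨x, hx2, hx1⟩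
  obtain ⟨β₁, hβ₁0, hβ₁, hs1⟩ : ∃ β₁ : ℝ, 0 < β₁ ∧ β₁ < β ∧
      derivWithin (fun b : ℝ => b * pressure n b h) (Set.Iio β) β - ε / 2 ≤
      (β * pressure n β h - β₁ * pressure n β₁ h) / (β - β₁) := by
    have h1 := hasLeft n hβ h
    rw [hasDerivWithinAt_iff_tendsto_slope' (by simp)] at h1
    obtain ⟨x, ⟨hx1, hx2⟩, hx3⟩ := (((h1.eventually (le_mem_nhds (sub_lt_self _
      (show 0 < ε / 2 by positivity)))).and self_mem_nhdsWithin).and
      (Ioo_mem_nhdsLT hβ)).exists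
    rw [slope_comm, slope_def_field] at hx1
    exact ⟨x, hx3.1, hx2, hx1⟩
  filter_upwards [fin_upper n hβ₁0 hβ₁ h (show 0 < ε / 2 by positivity),
    fin_lower n hβ hβ₂ h (show 0 < ε / 2 by positivity)] with N h1 h2
  constructor <;> linarith

/-- Slopes of the reduced pressure. -/
theorem gRed_slopes {n : ℕ} (hn : 1 ≤ n) {ε : ℝ} (hε : 0 < ε) : ∀ᶠ β : ℝ in atTop,
    ∀ h : ℝ, 0 ≤ h → ∃ ρ : ℝ, 0 < ρ ∧ ρ ≤ 1 / 4 ∧
      Real.sqrt β ^ 3 * (gRed n (β * (1 - ρ)) h - gRed n β h) ≤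
        ρ * ((1 + ε) * QS ((n : ℝ) / 2) (β * h)) ∧
      ρ * ((1 - ε) * QS ((n : ℝ) / 2) (β * h)) ≤
        Real.sqrt β ^ 3 * (gRed n β h - gRed n (β * (1 + ρ)) h) := by
  obtain ⟨η, e, hη0, hη1, he0, he1, hs⟩ := slope_ineq hn hε
  obtain ⟨K, hK1, hK⟩ := gRed_low hn
  obtain ⟨B₀, hB₀⟩ := eventually_atTop.1 (gRed_up hn he0)
  have hK2 : Tendsto (fun β : ℝ => K / β) atTop (𝓝 0) := tendsto_const_nhds.div_atTop tendsto_id
  filter_upwards [eventually_ge_atTop (2 * |B₀| + 1), eventually_ge_atTop K,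
    hK2.eventually (ge_mem_nhds he0)] with β hβB hβK hKe h hh
  have hβ0 : 0 < β := by linarith [abs_nonneg B₀]
  have ht0 : 0 ≤ β * h := by positivity
  obtain ⟨t, ht⟩ : ∃ t : ℝ, t = β * h := ⟨_, rfl⟩
  rw [← ht] at ht0 ⊢
  have h1t : 0 < 1 + t := by linarith
  have hρ0 : 0 < η / (1 + t) := by positivity
  have hρ1 : η / (1 + t) ≤ 1 / 4 := (div_le_self hη0.le (by linarith)).trans hη1
  obtain ⟨ρ, hρ⟩ : ∃ ρ : ℝ, ρ = η / (1 + t) := ⟨_, rfl⟩
  rw [← hρ] at hρ0 hρ1
  have hs' := hs t ρ ht0 (by rw [hρ]; field_simp)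
  refine ⟨ρ, hρ0, hρ1, ?_, ?_⟩
  · have hb1 : 0 < β * (1 - ρ) := mul_pos hβ0 (by linarith)
    have hb2 : B₀ ≤ β * (1 - ρ) := by
      have : β * (3 / 4) ≤ β * (1 - ρ) := mul_le_mul_of_nonneg_left (by linarith) hβ0.le
      have := le_abs_self B₀
      linarith [abs_nonneg B₀]
    have hρt : ρ * t ≤ 1 * t := mul_le_mul_of_nonneg_right (by linarith) ht0
    have u := hB₀ _ hb2 (t - ρ * t) (by linarith)
    have e1 : (t - ρ * t) / (β * (1 - ρ)) = h := by
      rw [ht, div_eq_iff hb1.ne']; ring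
    rw [e1, Real.sqrt_mul hβ0.le, mul_pow] at u
    have hq : 0 < Real.sqrt (1 - ρ) ^ 3 := by
      have : 0 < Real.sqrt (1 - ρ) := Real.sqrt_pos.2 (by linarith)
      positivity
    have u2 : Real.sqrt β ^ 3 * gRed n (β * (1 - ρ)) h ≤
        (1 + e) * (FS ((n : ℝ) / 2) (t - ρ * t) * (Real.sqrt (1 - ρ) ^ 3)⁻¹) := by
      rw [← mul_assoc, ← div_eq_mul_inv, le_div_iff₀ hq]
      linarith
    have l := hK β hβK t ht0
    rw [show t / β = h by rw [ht]; field_simp] at l
    have l2 : (1 - e) * FS ((n : ℝ) / 2) t ≤ (1 - K / β) * FS ((n : ℝ) / 2) t :=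
      mul_le_mul_of_nonneg_right (by linarith) (FS_nonneg _ _)
    rw [mul_sub]
    linarith [hs'.1]
  · have hb1 : 0 < β * (1 + ρ) := by positivity
    have hb2 : B₀ ≤ β * (1 + ρ) := by
      have : β * 1 ≤ β * (1 + ρ) := mul_le_mul_of_nonneg_left (by linarith) hβ0.le
      have := le_abs_self B₀
      linarith [abs_nonneg B₀]
    have hρt : 0 ≤ ρ * t := by positivity
    have u := hB₀ _ hb2 (t + ρ * t) (by linarith)
    have e1 : (t + ρ * t) / (β * (1 + ρ)) = h := by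
      rw [ht]; field_simp
    rw [e1, Real.sqrt_mul hβ0.le, mul_pow] at u
    have hq : 0 < Real.sqrt (1 + ρ) ^ 3 := by
      have : 0 < Real.sqrt (1 + ρ) := Real.sqrt_pos.2 (by linarith)
      positivity
    have u2 : Real.sqrt β ^ 3 * gRed n (β * (1 + ρ)) h ≤
        (1 + e) * (FS ((n : ℝ) / 2) (t + ρ * t) * (Real.sqrt (1 + ρ) ^ 3)⁻¹) := by
      rw [← mul_assoc, ← div_eq_mul_inv, le_div_iff₀ hq]
      linarith
    have l := hK β hβK t ht0
    rw [show t / β = h by rw [ht]; field_simp] at l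
    have l2 : (1 - e) * FS ((n : ℝ) / 2) t ≤ (1 - K / β) * FS ((n : ℝ) / 2) t :=
      mul_le_mul_of_nonneg_right (by linarith) (FS_nonneg _ _)
    rw [mul_sub]
    linarith [hs'.2]

end Vale.Agent.P361.H113
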