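import Vale.Agent.P361.H113.Energy

/-!
The energy and entropy of ideal spin waves, uniformly in the field.
-/

namespace Vale.Agent.P361.H113

open Filter Topology Matrix Vale.Agent.P361.B Vale.Agent.P361.H285

/-! ### Notation -/

theorem finEnergy_eq (n N : ℕ) (β h : ℝ) :
    finEnergy n N β h = gibbsEn n (P361.box N) β h / (P361.box N).card := rfl

theorem energyR_eq (n : ℕ) (β h : ℝ) :
    energyR n β h = -derivWithin (fun b : ℝ => b * pressure n b h) (Set.Ioi β) β := rfl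

theorem energyL_eq (n : ℕ) (β h : ℝ) :
    energyL n β h = -derivWithin (fun b : ℝ => b * pressure n b h) (Set.Iio β) β := rfl

theorem spinWaveEnergy_eq (n : ℕ) (t : ℝ) :
    spinWaveEnergy ((n : ℝ) / 2) t = QS ((n : ℝ) / 2) t := by
  unfold spinWaveEnergy QS
  rw [ipress_eq, deficit_eq]

theorem spinWaveEntropy_eq (n : ℕ) (t : ℝ) :
    spinWaveEntropy ((n : ℝ) / 2) t = FS ((n : ℝ) / 2) t + QS ((n : ℝ) / 2) t := by
  unfold spinWaveEntropy QS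
  rw [ipress_eq, deficit_eq]
  ring

theorem rpow_five_half {β : ℝ} (hβ : 0 < β) : β ^ (5 / 2 : ℝ) = Real.sqrt β ^ 3 * β := by
  rw [show (5 / 2 : ℝ) = 3 / 2 + 1 by norm_num, Real.rpow_add hβ, Real.rpow_one,
    H.rpow_three_half hβ.le]

/-! ### The energy -/

/-- Two slopes of `b ↦ b p_b(h)`, on either side of `β`, within relative error `ε`. -/
theorem energy_bounds {n : ℕ} (hn : 1 ≤ n) {ε : ℝ} (hε : 0 < ε) : ∀ᶠ β : ℝ in atTop,
    ∀ h : ℝ, 0 ≤ h → ∃ β₁ β₂ : ℝ, 0 < β₁ ∧ β₁ < β ∧ β < β₂ ∧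
      β ^ (5 / 2 : ℝ) * (-((β * pressure n β h - β₁ * pressure n β₁ h) / (β - β₁)) +
        3 * ((n : ℝ) / 2) ^ 2 + (n : ℝ) / 2 * h) ≤ (1 + ε) * QS ((n : ℝ) / 2) (β * h) ∧
      (1 - ε) * QS ((n : ℝ) / 2) (β * h) ≤
        β ^ (5 / 2 : ℝ) * (-((β₂ * pressure n β₂ h - β * pressure n β h) / (β₂ - β)) +
        3 * ((n : ℝ) / 2) ^ 2 + (n : ℝ) / 2 * h) := by
  filter_upwards [gRed_slopes hn hε, eventually_gt_atTop 0] with β hβ hβ0 h hh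
  obtain ⟨ρ, hρ0, hρ1, hU, hL⟩ := hβ h hh
  have hρβ : 0 < ρ * β := by positivity
  refine ⟨β * (1 - ρ), β * (1 + ρ), mul_pos hβ0 (by linarith), by linarith, by linarith, ?_, ?_⟩
  · have e : β ^ (5 / 2 : ℝ) * (-((β * pressure n β h -
        β * (1 - ρ) * pressure n (β * (1 - ρ)) h) / (β - β * (1 - ρ))) +
        3 * ((n : ℝ) / 2) ^ 2 + (n : ℝ) / 2 * h) =
        Real.sqrt β ^ 3 * (gRed n (β * (1 - ρ)) h - gRed n β h) / ρ := by
      rw [rpow_five_half hβ0]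
      unfold gRed
      have : β - β * (1 - ρ) = ρ * β := by ring
      rw [this]
      field_simp
      ring
    rw [e, div_le_iff₀ hρ0]
    linarith
  · have e : β ^ (5 / 2 : ℝ) * (-((β * (1 + ρ) * pressure n (β * (1 + ρ)) h -
        β * pressure n β h) / (β * (1 + ρ) - β)) +
        3 * ((n : ℝ) / 2) ^ 2 + (n : ℝ) / 2 * h) =
        Real.sqrt β ^ 3 * (gRed n β h - gRed n (β * (1 + ρ)) h) / ρ := by
      rw [rpow_five_half hβ0]
      unfold gRed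
      have : β * (1 + ρ) - β = ρ * β := by ring
      rw [this]
      field_simp
      ring
    rw [e, le_div_iff₀ hρ0]
    linarith

/-- Energy law: infinite volume and Gibbs states of large free cubes. -/
theorem energy_law {n : ℕ} (hn : 1 ≤ n) {ε : ℝ} (hε : 0 < ε) : ∀ᶠ β : ℝ in atTop,
    ∀ h : ℝ, 0 ≤ h →
      |β ^ (5 / 2 : ℝ) * (energyR n β h + 3 * ((n : ℝ) / 2) ^ 2 + (n : ℝ) / 2 * h) -
        spinWaveEnergy ((n : ℝ) / 2) (β * h)| ≤ ε * spinWaveEnergy ((n : ℝ) / 2) (β * h) ∧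
      |β ^ (5 / 2 : ℝ) * (energyL n β h + 3 * ((n : ℝ) / 2) ^ 2 + (n : ℝ) / 2 * h) -
        spinWaveEnergy ((n : ℝ) / 2) (β * h)| ≤ ε * spinWaveEnergy ((n : ℝ) / 2) (β * h) ∧
      ∀ᶠ N : ℕ in atTop,
        |β ^ (5 / 2 : ℝ) * (finEnergy n N β h + 3 * ((n : ℝ) / 2) ^ 2 + (n : ℝ) / 2 * h) -
          spinWaveEnergy ((n : ℝ) / 2) (β * h)| ≤ ε * spinWaveEnergy ((n : ℝ) / 2) (β * h) := by
  filter_upwards [energy_bounds hn (ε := ε / 2) (by positivity), eventually_gt_atTop 0]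
    with β hβ hβ0 h hh
  obtain ⟨β₁, β₂, hβ₁0, hβ₁, hβ₂, hU, hL⟩ := hβ h hh
  rw [spinWaveEnergy_eq]
  have hp : 0 < β ^ (5 / 2 : ℝ) := Real.rpow_pos_of_pos hβ0 _
  have hQ : 0 < QS ((n : ℝ) / 2) (β * h) := QS_pos hn (by positivity)
  obtain ⟨Q, hQdef⟩ : ∃ Q : ℝ, Q = QS ((n : ℝ) / 2) (β * h) := ⟨_, rfl⟩
  rw [← hQdef] at hU hL hQ ⊢
  have s1 := slope_le_left n hβ₁0 hβ₁ h
  have s2 := right_le_slope n hβ0 hβ₂ h
  have s3 := left_le_right n hβ0 h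
  have hεQ : 0 < ε * Q := by positivity
  -- anything between the slopes
  have key : ∀ θ x : ℝ, β ^ (5 / 2 : ℝ) * θ ≤ ε / 2 * Q →
      x ≤ -((β * pressure n β h - β₁ * pressure n β₁ h) / (β - β₁)) + θ →
      -((β₂ * pressure n β₂ h - β * pressure n β h) / (β₂ - β)) - θ ≤ x →
      |β ^ (5 / 2 : ℝ) * (x + 3 * ((n : ℝ) / 2) ^ 2 + (n : ℝ) / 2 * h) - Q| ≤ ε * Q := by
    intro θ x hθ h1 h2
    have g1 := mul_le_mul_of_nonneg_left h1 hp.le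
    have g2 := mul_le_mul_of_nonneg_left h2 hp.le
    rw [abs_le]
    constructor
    · linarith
    · linarith
  have hz : β ^ (5 / 2 : ℝ) * 0 ≤ ε / 2 * Q := by
    rw [mul_zero]; positivity
  refine ⟨?_, ?_, ?_⟩
  · rw [energyR_eq]
    exact key 0 _ hz (by linarith) (by linarith)
  · rw [energyL_eq]
    exact key 0 _ hz (by linarith) (by linarith)
  · obtain ⟨θ, hθ⟩ : ∃ θ : ℝ, θ = ε / 2 * Q / β ^ (5 / 2 : ℝ) := ⟨_, rfl⟩
    have hθ0 : 0 < θ := by rw [hθ]; positivity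
    have hθ1 : β ^ (5 / 2 : ℝ) * θ ≤ ε / 2 * Q := by
      rw [hθ]
      refine le_of_eq ?_
      field_simp
    filter_upwards [fin_upper n hβ₁0 hβ₁ h hθ0, fin_lower n hβ0 hβ₂ h hθ0] with N h1 h2
    rw [finEnergy_eq]
    exact key θ _ hθ1 h1 h2

/-! ### The entropy -/

theorem finEntropy_eq (n N : ℕ) {β : ℝ} (hβ : 0 < β) (h : ℝ) :
    finEntropy n N β h = β * (Model.finPressure n N β h + finEnergy n N β h) := by
  unfold finEntropy Model.finPressure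
  have hc : (0 : ℝ) < (Model.box N).card := by
    have := (box_nonempty N).card_pos
    exact_mod_cast this
  field_simp

/-- Entropy law. -/
theorem entropy_law {n : ℕ} (hn : 1 ≤ n) {ε : ℝ} (hε : 0 < ε) : ∀ᶠ β : ℝ in atTop,
    ∀ h : ℝ, 0 ≤ h →
      |β ^ (3 / 2 : ℝ) * (β * (Model.pressure n β h + energyR n β h)) -
        spinWaveEntropy ((n : ℝ) / 2) (β * h)| ≤ ε * spinWaveEntropy ((n : ℝ) / 2) (β * h) ∧
      |β ^ (3 / 2 : ℝ) * (β * (Model.pressure n β h + energyL n β h)) -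
        spinWaveEntropy ((n : ℝ) / 2) (β * h)| ≤ ε * spinWaveEntropy ((n : ℝ) / 2) (β * h) ∧
      ∀ᶠ N : ℕ in atTop,
        |β ^ (3 / 2 : ℝ) * finEntropy n N β h -
          spinWaveEntropy ((n : ℝ) / 2) (β * h)| ≤ ε * spinWaveEntropy ((n : ℝ) / 2) (β * h) := by
  filter_upwards [energy_law hn hε, pressure_law hn (ε := ε / 2) (by positivity),
    eventually_gt_atTop 0] with β hE hP hβ0 h hh
  obtain ⟨eR, eL, eN⟩ := hE h hh
  have hP := hP h hh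
  have hp : 0 < β ^ (5 / 2 : ℝ) := Real.rpow_pos_of_pos hβ0 _
  have ht : 0 ≤ β * h := by positivity
  have hF : 0 < FS ((n : ℝ) / 2) (β * h) :=
    lt_of_lt_of_le (mul_pos (cS_pos hn) (Real.exp_pos _)) (FS_ge n ht)
  have hQ := QS_nonneg ((n : ℝ) / 2) ht
  rw [spinWaveEnergy_eq] at eR eL
  simp only [spinWaveEnergy_eq] at eN
  simp only [spinWaveEntropy_eq]
  rw [ipress_eq] at hP
  obtain ⟨Q, hQdef⟩ : ∃ Q : ℝ, Q = QS ((n : ℝ) / 2) (β * h) := ⟨_, rfl⟩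
  obtain ⟨P, hPdef⟩ : ∃ P : ℝ, P = FS ((n : ℝ) / 2) (β * h) := ⟨_, rfl⟩
  rw [← hQdef] at eR eL hQ
  simp only [← hQdef] at eN
  simp only [← hQdef, ← hPdef] at hP hF ⊢
  have hpow : β ^ (3 / 2 : ℝ) * β = β ^ (5 / 2 : ℝ) := by
    rw [rpow_five_half hβ0, H.rpow_three_half hβ0.le]
  -- combination
  have key : ∀ p e : ℝ,
      |β ^ (5 / 2 : ℝ) * (p - 3 * ((n : ℝ) / 2) ^ 2 - (n : ℝ) / 2 * h) - P| ≤ ε * P →
      |β ^ (5 / 2 : ℝ) * (e + 3 * ((n : ℝ) / 2) ^ 2 + (n : ℝ) / 2 * h) - Q| ≤ ε * Q →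
      |β ^ (3 / 2 : ℝ) * (β * (p + e)) - (P + Q)| ≤ ε * (P + Q) := by
    intro p e h1 h2
    have e1 : β ^ (3 / 2 : ℝ) * (β * (p + e)) =
        β ^ (5 / 2 : ℝ) * (p - 3 * ((n : ℝ) / 2) ^ 2 - (n : ℝ) / 2 * h) +
        β ^ (5 / 2 : ℝ) * (e + 3 * ((n : ℝ) / 2) ^ 2 + (n : ℝ) / 2 * h) := by
      rw [← hpow]; ring
    rw [e1]
    rw [abs_le] at h1 h2 ⊢
    constructor
    · linarith [h1.1, h2.1]
    · linarith [h1.2, h2.2]
  have hP' : |β ^ (5 / 2 : ℝ) * (Model.pressure n β h - 3 * ((n : ℝ) / 2) ^ 2 -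
      (n : ℝ) / 2 * h) - P| ≤ ε * P := by
    have : 0 ≤ ε / 2 * P := by positivity
    linarith
  refine ⟨key _ _ hP' eR, key _ _ hP' eL, ?_⟩
  have hlim : Tendsto (fun N : ℕ => Model.finPressure n N β h) atTop
      (𝓝 (Model.pressure n β h)) := pressure_tendsto n hβ0 h
  obtain ⟨θ, hθ⟩ : ∃ θ : ℝ, θ = ε / 2 * P / β ^ (5 / 2 : ℝ) := ⟨_, rfl⟩
  have hθ0 : 0 < θ := by rw [hθ]; positivity
  have hθ1 : β ^ (5 / 2 : ℝ) * θ = ε / 2 * P := by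
    rw [hθ]
    field_simp
  filter_upwards [eN, hlim.eventually (ge_mem_nhds (lt_add_of_pos_right _ hθ0)),
    hlim.eventually (le_mem_nhds (sub_lt_self _ hθ0))] with N hN n1 n2
  rw [finEntropy_eq n N hβ0 h]
  refine key _ _ ?_ hN
  have r1 := mul_le_mul_of_nonneg_left n1 hp.le
  have r2 := mul_le_mul_of_nonneg_left n2 hp.le
  rw [abs_le] at hP ⊢
  constructor
  · linarith [hP.1]
  · linarith [hP.2]

/-! ### Zero field -/

theorem zeta_hasSum_five : HasSum (fun r : ℕ => 1 / ((r : ℝ) + 1) ^ (5 / 2 : ℝ))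
    (riemannZeta (5 / 2)).re := by
  have h1 : riemannZeta (5 / 2) = ∑' r : ℕ, 1 / ((r : ℂ) + 1) ^ (5 / 2 : ℂ) :=
    zeta_eq_tsum_one_div_nat_add_one_cpow (by norm_num)
  have hterm : ∀ r : ℕ, 1 / ((r : ℂ) + 1) ^ (5 / 2 : ℂ) =
      ((1 / ((r : ℝ) + 1) ^ (5 / 2 : ℝ) : ℝ) : ℂ) := by
    intro r
    push_cast
    rw [Complex.ofReal_cpow (by positivity)]
    push_cast
    rfl
  have hsum : Summable (fun r : ℕ => 1 / ((r : ℝ) + 1) ^ (5 / 2 : ℝ)) := by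
    have h2 : Summable (fun r : ℕ => 1 / ((r : ℝ)) ^ (5 / 2 : ℝ)) :=
      Real.summable_one_div_nat_rpow.2 (by norm_num)
    have h3 := (summable_nat_add_iff 1).2 h2
    refine h3.congr fun r => ?_
    push_cast
    rfl
  simp only [hterm] at h1
  rw [h1, ← Complex.ofReal_tsum, Complex.ofReal_re]
  exact hsum.hasSum

theorem pressure_zero (n : ℕ) : spinWavePressure ((n : ℝ) / 2) 0 =
    (riemannZeta (5 / 2)).re / (8 * Real.pi ^ (3 / 2 : ℝ) * ((n : ℝ) / 2) ^ (3 / 2 : ℝ)) := by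
  have hpi := Real.pi_pos
  have hs0 : (0 : ℝ) ≤ (n : ℝ) / 2 := by positivity
  have h2 : (8 : ℝ) * Real.pi ^ (3 / 2 : ℝ) * ((n : ℝ) / 2) ^ (3 / 2 : ℝ) =
      (4 * Real.pi * ((n : ℝ) / 2)) ^ (3 / 2 : ℝ) := by
    have h8 : (8 : ℝ) = 4 ^ (3 / 2 : ℝ) := by
      rw [show (4 : ℝ) = 2 ^ (2 : ℝ) by norm_num, ← Real.rpow_mul (by norm_num)]
      norm_num
    rw [h8, ← Real.mul_rpow (by norm_num) hpi.le, ← Real.mul_rpow (by positivity) hs0]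
  unfold spinWavePressure
  rw [h2, Real.rpow_neg (by positivity), inv_mul_eq_div, ← zeta_hasSum_five.tsum_eq]
  simp

theorem energy_zero (n : ℕ) : spinWaveEnergy ((n : ℝ) / 2) 0 =
    3 * (riemannZeta (5 / 2)).re /
      (16 * Real.pi ^ (3 / 2 : ℝ) * ((n : ℝ) / 2) ^ (3 / 2 : ℝ)) := by
  unfold spinWaveEnergy
  rw [pressure_zero, zero_mul, add_zero, ← mul_div_assoc, ← mul_div_mul_left _ _
    (show (2 : ℝ) ≠ 0 by norm_num)]
  congr 1 <;> ring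

theorem entropy_zero (n : ℕ) : spinWaveEntropy ((n : ℝ) / 2) 0 =
    5 * (riemannZeta (5 / 2)).re /
      (16 * Real.pi ^ (3 / 2 : ℝ) * ((n : ℝ) / 2) ^ (3 / 2 : ℝ)) := by
  unfold spinWaveEntropy
  rw [pressure_zero, zero_mul, add_zero, ← mul_div_assoc, ← mul_div_mul_left _ _
    (show (2 : ℝ) ≠ 0 by norm_num)]
  congr 1 <;> ring

/-- From relative error to convergence. -/
theorem tendsto_of_rel {u : ℝ → ℝ} {a : ℝ} (ha : 0 ≤ a)
    (h : ∀ ε : ℝ, 0 < ε → ∀ᶠ β : ℝ in atTop, |u β - a| ≤ ε * a) :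
    Tendsto u atTop (𝓝 a) := by
  rw [Metric.tendsto_nhds]
  intro ε hε
  filter_upwards [h (ε / (a + 1)) (by positivity)] with β hβ
  rw [Real.dist_eq]
  refine lt_of_le_of_lt hβ ?_
  rw [div_mul_eq_mul_div, div_lt_iff₀ (by positivity)]
  linarith

/-- Everything. -/
theorem final (n : ℕ) (hn : 1 ≤ n) :
    ((∀ β : ℝ, 0 < β →
      (∀ h : ℝ, Tendsto (fun N : ℕ => Model.finPressure n N β h) atTop (𝓝 (Model.pressure n β h))) ∧
      ConvexOn ℝ Set.univ (Model.pressure n β) ∧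
      HasDerivWithinAt (Model.pressure n β) (Model.spontMag n β) (Set.Ioi 0) 0 ∧
      Model.spontMag n β ≤ (n : ℝ) / 2) ∧
    (∃ β₀ : ℝ, 0 < β₀ ∧ ∀ β : ℝ, β₀ ≤ β → 0 < Model.spontMag n β) ∧
    Tendsto (fun β : ℝ => Model.spontMag n β) atTop (𝓝 ((n : ℝ) / 2)) ∧
    Tendsto (fun β : ℝ => β ^ (3 / 2 : ℝ) * ((n : ℝ) / 2 - Model.spontMag n β)) atTop
      (𝓝 ((riemannZeta (3 / 2)).re /
        (8 * Real.pi ^ (3 / 2 : ℝ) * ((n : ℝ) / 2) ^ (3 / 2 : ℝ))))) ∧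
    (∀ h : ℝ, ConvexOn ℝ (Set.Ioi 0) (fun b : ℝ => b * Model.pressure n b h) ∧
      ∀ β : ℝ, 0 < β →
        HasDerivWithinAt (fun b : ℝ => b * Model.pressure n b h) (-energyR n β h) (Set.Ioi β) β ∧
        HasDerivWithinAt (fun b : ℝ => b * Model.pressure n b h) (-energyL n β h) (Set.Iio β) β ∧
        ∀ ε : ℝ, 0 < ε → ∀ᶠ N : ℕ in atTop,
          energyR n β h - ε ≤ finEnergy n N β h ∧ finEnergy n N β h ≤ energyL n β h + ε) ∧
    (∀ ε : ℝ, 0 < ε → ∀ᶠ β : ℝ in atTop, ∀ h : ℝ, 0 ≤ h →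
      |β ^ (5 / 2 : ℝ) * (energyR n β h + 3 * ((n : ℝ) / 2) ^ 2 + (n : ℝ) / 2 * h) -
        spinWaveEnergy ((n : ℝ) / 2) (β * h)| ≤ ε * spinWaveEnergy ((n : ℝ) / 2) (β * h) ∧
      |β ^ (5 / 2 : ℝ) * (energyL n β h + 3 * ((n : ℝ) / 2) ^ 2 + (n : ℝ) / 2 * h) -
        spinWaveEnergy ((n : ℝ) / 2) (β * h)| ≤ ε * spinWaveEnergy ((n : ℝ) / 2) (β * h) ∧
      ∀ᶠ N : ℕ in atTop,
        |β ^ (5 / 2 : ℝ) * (finEnergy n N β h + 3 * ((n : ℝ) / 2) ^ 2 + (n : ℝ) / 2 * h) -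
          spinWaveEnergy ((n : ℝ) / 2) (β * h)| ≤ ε * spinWaveEnergy ((n : ℝ) / 2) (β * h)) ∧
    (∀ ε : ℝ, 0 < ε → ∀ᶠ β : ℝ in atTop, ∀ h : ℝ, 0 ≤ h →
      |β ^ (3 / 2 : ℝ) * (β * (Model.pressure n β h + energyR n β h)) -
        spinWaveEntropy ((n : ℝ) / 2) (β * h)| ≤ ε * spinWaveEntropy ((n : ℝ) / 2) (β * h) ∧
      |β ^ (3 / 2 : ℝ) * (β * (Model.pressure n β h + energyL n β h)) -
        spinWaveEntropy ((n : ℝ) / 2) (β * h)| ≤ ε * spinWaveEntropy ((n : ℝ) / 2) (β * h) ∧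
      ∀ᶠ N : ℕ in atTop,
        |β ^ (3 / 2 : ℝ) * finEntropy n N β h -
          spinWaveEntropy ((n : ℝ) / 2) (β * h)| ≤ ε * spinWaveEntropy ((n : ℝ) / 2) (β * h)) ∧
    Tendsto (fun β : ℝ => β ^ (5 / 2 : ℝ) * (energyR n β 0 + 3 * ((n : ℝ) / 2) ^ 2)) atTop
      (𝓝 (3 * (riemannZeta (5 / 2)).re /
        (16 * Real.pi ^ (3 / 2 : ℝ) * ((n : ℝ) / 2) ^ (3 / 2 : ℝ)))) ∧
    Tendsto (fun β : ℝ => β ^ (5 / 2 : ℝ) * (energyL n β 0 + 3 * ((n : ℝ) / 2) ^ 2)) atTop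
      (𝓝 (3 * (riemannZeta (5 / 2)).re /
        (16 * Real.pi ^ (3 / 2 : ℝ) * ((n : ℝ) / 2) ^ (3 / 2 : ℝ)))) ∧
    Tendsto (fun β : ℝ => β ^ (3 / 2 : ℝ) * (β * (Model.pressure n β 0 + energyR n β 0))) atTop
      (𝓝 (5 * (riemannZeta (5 / 2)).re /
        (16 * Real.pi ^ (3 / 2 : ℝ) * ((n : ℝ) / 2) ^ (3 / 2 : ℝ)))) ∧
    Tendsto (fun β : ℝ => β ^ (3 / 2 : ℝ) * (β * (Model.pressure n β 0 + energyL n β 0))) atTop
      (𝓝 (5 * (riemannZeta (5 / 2)).re /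
        (16 * Real.pi ^ (3 / 2 : ℝ) * ((n : ℝ) / 2) ^ (3 / 2 : ℝ)))) := by
  have hE := fun ε (hε : (0 : ℝ) < ε) => energy_law hn hε
  have hS := fun ε (hε : (0 : ℝ) < ε) => entropy_law hn hε
  have hpi := Real.pi_pos
  have hz : 0 ≤ (riemannZeta (5 / 2)).re := by
    rw [← zeta_hasSum_five.tsum_eq]
    exact tsum_nonneg fun r => by positivity
  have h0 : 0 ≤ spinWaveEnergy ((n : ℝ) / 2) 0 := by
    rw [energy_zero]; positivity
  have h1 : 0 ≤ spinWaveEntropy ((n : ℝ) / 2) 0 := by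
    rw [entropy_zero]; positivity
  refine ⟨LRO.S3S.bloch_all n hn, fun h => ⟨pressure_convex_beta n h, fun β hβ => ⟨?_, ?_,
    fun ε hε => fin_between n hβ h hε⟩⟩, hE, hS, ?_, ?_, ?_, ?_⟩
  · rw [energyR_eq, neg_neg]
    exact hasRight n hβ h
  · rw [energyL_eq, neg_neg]
    exact hasLeft n hβ h
  · rw [← energy_zero]
    refine tendsto_of_rel h0 fun ε hε => ?_
    filter_upwards [hE ε hε] with β hβ
    have := (hβ 0 le_rfl).1
    rwa [mul_zero, mul_zero, add_zero] at this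
  · rw [← energy_zero]
    refine tendsto_of_rel h0 fun ε hε => ?_
    filter_upwards [hE ε hε] with β hβ
    have := (hβ 0 le_rfl).2.1
    rwa [mul_zero, mul_zero, add_zero] at this
  · rw [← entropy_zero]
    refine tendsto_of_rel h1 fun ε hε => ?_
    filter_upwards [hS ε hε] with β hβ
    have := (hβ 0 le_rfl).1
    rwa [mul_zero] at this
  · rw [← entropy_zero]
    refine tendsto_of_rel h1 fun ε hε => ?_
    filter_upwards [hS ε hε] with β hβ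
    have := (hβ 0 le_rfl).2.1
    rwa [mul_zero] at this

end Vale.Agent.P361.H113
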